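import Vale.Agent.P042.SS.ANDefs
import Vale.Agent.P042.Defs

set_option autoImplicit false

/-!
Power saving for odd polynomials: interface.  Every `XStmt` is proved as `theorem x_holds : XStmt`
in its own file.
-/

namespace Vale.Agent.P042.Odd

open Polynomial Finset Vale.Agent.P042 Vale.Agent.P042.SS

/-- `x ↦ h (d x)` -/
noncomputable def dil (h : ℤ[X]) (d : ℕ) : ℤ[X] := h.comp (C (d : ℤ) * X)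

/-- the tent centred at `0` with half-width `4H` and height `1/(4H)` -/
noncomputable def ct (H : ℕ) (m : ℤ) : ℝ := max 0 (4 * (H : ℝ) - |(m : ℝ)|) / (16 * (H : ℝ) ^ 2)

/-- one-sided kernel `∑_{m ≥ 1} ct(m) e(bm)` -/
noncomputable def Vc (H : ℕ) (b : ℝ) : ℂ :=
  ∑ m ∈ Ico (1 : ℤ) (4 * H), (ct H m : ℂ) * e (b * (m : ℝ))

/-- the weighted Weyl sum -/
noncomputable def Sc (f : ℤ[X]) (H x0 X : ℕ) (θ : ℝ) : ℂ :=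
  ∑ x ∈ Ico x0 X, ((gp f x * ct H (fv f x) : ℝ) : ℂ) * e (θ * (fv f x : ℝ))

/-- weighted `ℓ¹` norm of the coefficients -/
noncomputable def nrm (R : ℝ) (g : ℝ[X]) : ℝ := g.sum fun j a => |a| * R ^ j

/-- the geometric law truncated at `B` (used for `0 ≤ i ≤ B`) -/
def gl {A : Type*} [CommRing A] (B : ℕ) (w : A) (i : ℕ) : A :=
  if i < B then (1 - w) * w ^ i else w ^ i

/-- block K (kernel) -/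
def KerStmt : Prop :=
  ∀ H : ℕ, 1 ≤ H →
    (∀ m, 0 ≤ ct H m) ∧ (∀ m, ct H m ≤ 1 / H) ∧
    (∀ m, |ct H (m + 1) - ct H m| ≤ 1 / (H : ℝ) ^ 2) ∧
    (∀ m, 4 * (H : ℤ) ≤ m → ct H m = 0) ∧
    (∀ b, -(1 / (H : ℝ)) ≤ 2 * (Vc H b).re) ∧ (∀ b, 2 * (Vc H b).re ≤ 1) ∧
    2 * (Vc H 0).re = 1 - 1 / (4 * H)

/-- block V (van der Corput deduction) -/
def VdcStmt : Prop :=
  ∀ (ι : Type) (h : ℤ[X]) (N M : ℕ) (S : Finset ι) (u : ι → ℤ) (W : ι → ℝ) (τ : ℝ),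
    1 ≤ N → 0 ≤ τ →
    (∀ i ∈ S, W i ≠ 0 → 1 ≤ u i ∧ u i ≤ M ∧ ∃ n : ℕ, 1 ≤ n ∧ h.eval (n : ℤ) = u i) →
    (∀ θ : ℝ, -τ ≤ ∑ i ∈ S, W i * (2 * (e (θ * (u i : ℝ))).re)) →
    1 / 2 ≤ ∑ i ∈ S, W i * 2 →
    (rMax h N : ℝ) ≤ 2 * τ * (N + M)

/-- block X (extrapolation from `[0,s0]` to `1`) -/
def ExtStmt : Prop :=
  ∀ s0 : ℝ, 0 < s0 → s0 ≤ 1 → ∀ n : ℕ, 1 ≤ n → ∃ c : ℕ → ℝ,
    ∑ i ∈ range (n + 1), |c i| ≤ (6 / s0) ^ n ∧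
    ∀ (R : ℝ) (g : ℝ[X]), 1 ≤ R →
      |∑ i ∈ range (n + 1), c i * g.eval (i * s0 / n) - g.eval 1| ≤ 2 * (6 / R) ^ n * nrm R g

/-- block L (local Gauss sums of the dilates) -/
def LocStmt : Prop :=
  ∀ (k : ℕ) (h : ℤ[X]), 2 ≤ k → h.natDegree = k → 0 < h.leadingCoeff → h.eval 0 = 0 →
    ∃ E K : ℕ, 1 ≤ E ∧ 1 ≤ K ∧ ∀ (p j : ℕ) (b : ℤ), p.Prime → 1 ≤ j → IsCoprime b (p : ℤ) →
      ∃ J : ℕ, 1 ≤ J ∧ J ≤ j ∧ (∀ i, J ≤ i → Gam (dil h (p ^ i)) b (p ^ j) = 1) ∧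
        ∀ i, i < J → ‖Gam (dil h (p ^ i)) b (p ^ j)‖ ^ E * (p : ℝ) ^ (J - i) ≤ (K : ℝ) ^ E

/-- block R (Gauss sums of odd polynomials are real) -/
def RealStmt : Prop :=
  ∀ (h : ℤ[X]) (d q : ℕ) (a : ℤ), (∀ z : ℤ, h.eval (-z) = -h.eval z) → 1 ≤ q →
    (Gam (dil h d) a q).im = 0

/-- block C (Chinese remainder theorem) -/
def CrtStmt : Prop :=
  ∀ (h : ℤ[X]) (q : ℕ) (a : ℤ), 1 ≤ q → IsCoprime a (q : ℤ) →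
    ∃ b : ℕ → ℤ, (∀ p ∈ q.primeFactors, IsCoprime (b p) (p : ℤ)) ∧
      ∀ d : ℕ, 1 ≤ d → Gam (dil h d) a q =
        ∏ p ∈ q.primeFactors, Gam (dil h (p ^ d.factorization p)) (b p) (p ^ q.factorization p)

/-- block F (the local laws) -/
def FacStmt : Prop :=
  ∀ (E K : ℕ) (R : ℝ), 1 ≤ E → 1 ≤ K → 2 ≤ R →
    ∃ (s0 κ C1 : ℝ) (w : ℕ → ℝ[X]), 0 < s0 ∧ s0 ≤ 1 ∧ 0 < κ ∧ κ ≤ 1 ∧ 1 ≤ C1 ∧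
      (∀ p : ℕ, p.Prime → ∀ s : ℝ, 0 ≤ s → s ≤ s0 → 0 ≤ (w p).eval s ∧ (w p).eval s ≤ 1) ∧
      (∀ (Ps : Finset ℕ) (B : ℕ) (s : ℝ), (∀ p ∈ Ps, p.Prime) → 0 ≤ s → s ≤ s0 →
        ∏ p ∈ Ps, ∑ i ∈ range (B + 1), gl B ((w p).eval s) i * ((p : ℝ) ^ i) ^ κ ≤ C1) ∧
      ∀ (p J B : ℕ) (σ : ℕ → ℝ), p.Prime → 1 ≤ J → J ≤ B → (∀ i, J ≤ i → σ i = 1) →
        (∀ i, |σ i| ≤ 1) → (∀ i, i < J → |σ i| ^ E * (p : ℝ) ^ (J - i) ≤ (K : ℝ) ^ E) →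
        0 ≤ (∑ i ∈ range (B + 1), gl B (w p) i * C (σ i)).eval 1 ∧
          nrm R (∑ i ∈ range (B + 1), gl B (w p) i * C (σ i)) ≤ 1

/-- block A (arithmetic output), from L, R, C, F -/
def ArStmt : Prop :=
  ∀ (k : ℕ) (h : ℤ[X]) (R : ℝ), 2 ≤ k → h.natDegree = k → 0 < h.leadingCoeff →
    (∀ z : ℤ, h.eval (-z) = -h.eval z) → 2 ≤ R →
    ∃ s0 κ C1 : ℝ, 0 < s0 ∧ s0 ≤ 1 ∧ 0 < κ ∧ κ ≤ 1 ∧ 1 ≤ C1 ∧ ∀ Q : ℕ, 1 ≤ Q →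
      ∃ (T : Type) (S : Finset T) (D : T → ℕ) (P : T → ℝ[X]),
        (∀ t ∈ S, 1 ≤ D t) ∧ (∀ t ∈ S, ∀ s : ℝ, 0 ≤ s → s ≤ s0 → 0 ≤ (P t).eval s) ∧
        ∑ t ∈ S, P t = 1 ∧
        (∀ s : ℝ, 0 ≤ s → s ≤ s0 → ∑ t ∈ S, (P t).eval s * (D t : ℝ) ^ κ ≤ C1) ∧
        ∀ (q : ℕ) (a : ℤ), 1 ≤ q → q ≤ Q → IsCoprime a (q : ℤ) → ∃ Λ : ℝ[X],
          (∀ s : ℝ, ∑ t ∈ S, (((P t).eval s : ℝ) : ℂ) * Gam (dil h (D t)) a q =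
            ((Λ.eval s : ℝ) : ℂ)) ∧ 0 ≤ Λ.eval 1 ∧ nrm R Λ ≤ 1

/-- block M (major arcs) -/
def MajOStmt : Prop :=
  ∀ (k : ℕ) (f : ℤ[X]) (H x0 X q : ℕ) (a : ℤ) (g C θ : ℝ), 1 ≤ H → 1 ≤ q →
    1 ≤ fv f x0 → Grow k f H x0 X g C →
    ‖Sc f H x0 X θ - Gam f a q * Vc H (θ - (a : ℝ) / q)‖ ≤
      200 * q * (1 + |θ - (a : ℝ) / q| * H) * g / H + (fv f x0 : ℝ) / H

/-- block N (minor arcs) -/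
def MinOStmt : Prop :=
  ∀ k : ℕ, 2 ≤ k → ∀ C : ℝ, 1 ≤ C → ∃ E K : ℕ, 1 ≤ E ∧ 1 ≤ K ∧
  ∀ (f : ℤ[X]) (H x0 X : ℕ) (g δ B θ : ℝ), f.natDegree = k → 0 < f.leadingCoeff →
    0 < δ → δ ≤ 1 → 1 ≤ B → (∀ j : ℕ, |(f.coeff j : ℝ)| ≤ B) →
    (K * B / δ) ^ E ≤ (H : ℝ) → Grow k f H x0 X g C →
    ‖Sc f H x0 X θ‖ ≤ δ ∨
      ∃ (q : ℕ) (a : ℤ), 1 ≤ q ∧ (q : ℝ) ≤ (K * B / δ) ^ E ∧
        |θ - a / q| ≤ (K * B / δ) ^ E / H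

/-- block G (growth of the dilates) -/
def GroOStmt : Prop :=
  ∀ (k : ℕ) (h : ℤ[X]) (y1 : ℕ), 2 ≤ k → h.natDegree = k → 0 < h.leadingCoeff →
    ∃ (y0 : ℕ) (C : ℝ) (E : ℕ), 1 ≤ y0 ∧ y1 ≤ y0 ∧ 1 ≤ C ∧ 1 ≤ E ∧
      ∀ (d H : ℕ), 1 ≤ d → (C * d) ^ E ≤ (H : ℝ) → ∃ (X : ℕ) (g : ℝ),
        Grow k (dil h d) H y0 X g C ∧ 1 ≤ fv (dil h d) y0 ∧
        (fv (dil h d) y0 : ℝ) ≤ C * (d : ℝ) ^ k ∧ (g / H) ^ k * H ≤ (C * d) ^ k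

/-- the final theorem (also odd about an integer centre `m`) -/
def FinOStmt : Prop :=
  ∀ (h : ℤ[X]) (m : ℤ), 2 ≤ h.natDegree → 0 < h.leadingCoeff →
    (∀ z : ℤ, h.eval (m - z) = -h.eval (m + z)) →
    ∃ c C : ℝ, 0 < c ∧ 0 < C ∧ ∀ N : ℕ, (rMax h N : ℝ) ≤ C * (N : ℝ) ^ (1 - c)

end Vale.Agent.P042.Odd
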